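import Vale.Agent.P122A.Non3

/-! Summation over dyadic frequency blocks. -/

open MeasureTheory Set FourierTransform
open scoped ENNReal

namespace Vale.Agent.P122A

theorem sob3 (hx : V_mix) (p c s : ℝ) (hp : 3 < p) (hc : 0 < c) (hs : 1 / 2 - 1 / p < s)
    (φ ψ : ℝ → ℝ) (hφ : Cu c φ) (hψ : C2 c ψ) : ∃ C : ℝ≥0∞, C ≠ ⊤ ∧ ∀ g : ℝ → ℝ → ℂ,
      Measurable (Function.uncurry g) →
      IntegrableOn (Function.uncurry g) (Icc (0 : ℝ) 1 ×ˢ (univ : Set ℝ)) →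
      ∫⁻ z, ‖ext φ ψ (fun q => ∫ y, g q.1 y * ee (y * q.2)) z‖ₑ ^ p ≤
        C * ∫⁻ ξ in Icc (0 : ℝ) 1,
          (∫⁻ y, ENNReal.ofReal (1 + |y|) ^ (2 * s) * ‖g ξ y‖ₑ ^ 2) ^ (p / 2) := by
  have hv := z_vdc
  have hr := d_rep
  have hm := d_fub.2
  obtain ⟨C, hC, h⟩ := non3 hx p c hp hc φ ψ hφ hψ
  obtain ⟨C₂, hC₂, h2⟩ := hv c ψ hc hψ
  have hp0 : 0 < p := by linarith
  have hs0 : 0 ≤ s := by
    have : 1 / p ≤ 1 / 2 := one_div_le_one_div_of_le two_pos (by linarith)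
    linarith
  have cφ := hφ.diff.continuous
  have cψ := hψ.1.continuous
  set ρ : ℝ≥0∞ := (2 : ℝ≥0∞) ^ (1 / 2 - 1 / p - s) with hρ
  have ρ0 : ρ ≠ 0 := (ENNReal.rpow_pos two_pos ENNReal.ofNat_ne_top).ne'
  have ρ1 : ρ < 1 := ENNReal.rpow_lt_one_of_one_lt_of_neg ENNReal.one_lt_two (by linarith)
  have hW : (1 - ρ)⁻¹ ≠ ⊤ := ENNReal.inv_ne_top.2 (tsub_pos_of_lt ρ1).ne'
  refine ⟨(1 - ρ)⁻¹ ^ (p - 1) * (1 - ρ)⁻¹ * (C * 2 ^ (p - 2)), ENNReal.mul_ne_top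
    (ENNReal.mul_ne_top (ENNReal.rpow_ne_top_of_nonneg (by linarith) hW) hW)
    (ENNReal.mul_ne_top hC (ENNReal.rpow_ne_top_of_nonneg (by linarith) ENNReal.ofNat_ne_top)),
    fun g hg hi => ?_⟩
  have e0 : ∀ j, (Function.uncurry fun ξ y => (YY j).indicator (g ξ) y) =
      (univ ×ˢ YY j).indicator (Function.uncurry g) := fun j => by
    funext w
    by_cases hw : w.2 ∈ YY j <;> simp [Function.uncurry, indicator, hw]
  have mg : ∀ j, Measurable (Function.uncurry fun ξ y => (YY j).indicator (g ξ) y) := fun j => by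
    rw [e0]; exact hg.indicator (MeasurableSet.univ.prod (YY_meas j))
  have ig : ∀ j, IntegrableOn (Function.uncurry fun ξ y => (YY j).indicator (g ξ) y)
      (Icc (0 : ℝ) 1 ×ˢ (univ : Set ℝ)) := fun j => by
    rw [e0]; exact hi.indicator (MeasurableSet.univ.prod (YY_meas j))
  obtain ⟨r1, r2, r3⟩ := hr φ ψ g cφ cψ hg hi
  rw [mul_assoc]
  refine geo_sum p (by linarith) ρ ρ0 ρ1 _
    (fun j z => ‖ext φ ψ (fun q => ∫ y, (YY j).indicator (g q.1) y * ee (y * q.2)) z‖ₑ) _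
    (fun j => (hm φ ψ _ cφ cψ ?_).enorm) (fun z => ?_) fun j => ?_
  · have a1 : Measurable fun w : (ℝ × ℝ) × ℝ => (YY j).indicator (g w.1.1) w.2 * ee (w.2 * w.1.2) :=
      ((mg j).comp (f := fun w : (ℝ × ℝ) × ℝ => (w.1.1, w.2)) (by fun_prop)).mul
        (cont_ee.measurable.comp (by fun_prop))
    exact (a1.stronglyMeasurable.integral_prod_right' (ν := volume)).measurable
  · have mk : Measurable fun y => kk ψ (z.2.1 + y) z.2.2 := by
      have a1 : Measurable fun w : ℝ × ℝ => ee ((z.2.1 + w.1) * w.2 + z.2.2 * ψ w.2) :=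
        cont_ee.measurable.comp (by fun_prop)
      exact (a1.stronglyMeasurable.integral_prod_right'
        (ν := volume.restrict (Icc (0 : ℝ) 1))).measurable
    have a2 := (r2 z.1 z.2.2).mul_bdd mk.aestronglyMeasurable
      (Filter.Eventually.of_forall fun y => h2 (z.2.1 + y) z.2.2)
    have a3 := hasSum_integral_iUnion YY_meas YY_disj (f := fun y =>
      E φ ((Icc (0 : ℝ) 1).indicator fun ξ => g ξ y) z.1 z.2.2 * kk ψ (z.2.1 + y) z.2.2)
      a2.integrableOn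
    rw [YY_univ, Measure.restrict_univ] at a3
    rw [r3, ← a3.tsum_eq]
    refine enorm_tsum_le_tsum_enorm.trans (le_of_eq (tsum_congr fun j => ?_))
    rw [(hr φ ψ _ cφ cψ (mg j) (ig j)).2.2 z, ← integral_indicator (YY_meas j)]
    congr 2
    funext y
    by_cases hy : y ∈ YY j
    · simp only [indicator_of_mem hy]
    · simp only [indicator_of_notMem hy, E, indicator_zero, zero_mul, integral_zero]
  · refine (h _ (YY j) (mg j) (YY_meas j) (fun ξ y hy => indicator_of_notMem hy _) (ig j)).trans ?_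
    have b1 : ∀ ξ, ∫⁻ y, ‖(YY j).indicator (g ξ) y‖ₑ ^ 2 ≤
        (2 : ℝ≥0∞) ^ (-((j : ℝ) * (2 * s))) * ∫⁻ y, ENNReal.ofReal (1 + |y|) ^ (2 * s) *
          ‖g ξ y‖ₑ ^ 2 := fun ξ => by
      rw [← lintegral_const_mul' _ _ (ENNReal.rpow_ne_top_of_ne_zero two_ne_zero
        ENNReal.ofNat_ne_top)]
      refine lintegral_mono fun y => ?_
      by_cases hy : y ∈ YY j
      · simp only [indicator_of_mem hy]
        rw [← mul_assoc]
        exact le_mul_of_one_le_left zero_le (YY_wt hs0 hy)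
      · simp only [indicator_of_notMem hy, enorm_zero, ne_eq, OfNat.ofNat_ne_zero,
          not_false_eq_true, zero_pow]
        exact zero_le
    have b2 : ∫⁻ ξ in Icc (0 : ℝ) 1, (∫⁻ y, ‖(YY j).indicator (g ξ) y‖ₑ ^ 2) ^ (p / 2) ≤
        ((2 : ℝ≥0∞) ^ (-((j : ℝ) * (2 * s)))) ^ (p / 2) * ∫⁻ ξ in Icc (0 : ℝ) 1,
          (∫⁻ y, ENNReal.ofReal (1 + |y|) ^ (2 * s) * ‖g ξ y‖ₑ ^ 2) ^ (p / 2) := by
      rw [← lintegral_const_mul' _ _ (ENNReal.rpow_ne_top_of_nonneg (by positivity)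
        (ENNReal.rpow_ne_top_of_ne_zero two_ne_zero ENNReal.ofNat_ne_top))]
      refine lintegral_mono fun ξ => ?_
      rw [← ENNReal.mul_rpow_of_nonneg _ _ (show 0 ≤ p / 2 by positivity)]
      exact ENNReal.rpow_le_rpow (b1 ξ) (by positivity)
    have b3 := ENNReal.rpow_le_rpow (YY_vol j) (show 0 ≤ p / 2 - 1 by linarith)
    refine (mul_le_mul' (mul_le_mul_right b3 _) b2).trans (le_of_eq ?_)
    have b4 : ((2 : ℝ≥0∞) ^ ((j : ℝ) + 2)) ^ (p / 2 - 1) *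
        ((2 : ℝ≥0∞) ^ (-((j : ℝ) * (2 * s)))) ^ (p / 2) = 2 ^ (p - 2) * (ρ ^ j) ^ p := by
      rw [hρ, ← ENNReal.rpow_natCast, ← ENNReal.rpow_mul, ← ENNReal.rpow_mul, ← ENNReal.rpow_mul,
        ← ENNReal.rpow_mul, ← ENNReal.rpow_add _ _ two_ne_zero ENNReal.ofNat_ne_top,
        ← ENNReal.rpow_add _ _ two_ne_zero ENNReal.ofNat_ne_top]
      congr 1
      field_simp
      ring
    rw [← mul_assoc, mul_assoc C, b4]
    ring

end Vale.Agent.P122A
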